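import Vale.Agent.P011.D4X.H862.Base
import Vale.Agent.P011.D4X.H657.ZT
import Vale.Agent.P011.D4X.H691.Std
import Vale.Agent.P011.D4X.H659.Step

/-!
Block D4X: the base chain, existence.
-/

open NumberField
open Vale.Agent.P011.MPQ Vale.Agent.P011.D4 Vale.Agent.P011.D4.Oct Vale.Agent.P011.D4.H24
open Vale.Agent.P011.E6

open Vale.Agent.P011.D4X.H691

set_option linter.unusedSectionVars false

namespace Vale.Agent.P011.D4X.H862

theorem trip_jl {F : Type} [Field F] (a b c : Fˣ) :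
    Trip a (-(b * c)) c (gi : Oct a b c) ((gj : Oct a b c) * gl) gl := by
  constructor
  · apply ext8 <;> simp [gi]
  · apply ext8 <;> simp [gj, gl]
  · apply ext8 <;> simp [gl]
  · apply ext8 <;> simp [gi]
  · apply ext8 <;> simp [gj, gl, mul_comm]
  · apply ext8 <;> simp [gl]
  · simp [dot, gi, gj, gl]
  · simp [dot, gi, gl]
  · simp [dot, gj, gl]
  · simp [dot, gi, gj, gl]

variable {k L E : Type} [Field k] [Field L] [Field E] [Algebra k L] [Algebra k E]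
  [Algebra L E] [IsScalarTower k L E] [NeZero (2 : E)] {ρ σ : E ≃ₐ[k] E} {ρL : L ≃ₐ[k] L} {α : E}
  {a b c : kˣ} {q : Lˣ} (H : Hy ρ σ ρL α a b c q)

include H

theorem exists_short (x : Qt (up L a) (q * up L b)) (hx : nrd x = 1) :
    ∃ z : AT ρ σ α a b c q, z ∈ stab0 ρ σ α a b c q ∧ IsKap ρ z.1 (1 : Lˣ) ∧
      ∀ y, z.1 y = shortFun ρ (psiL α q x) y := by
  have h1 : nrd (1 : Qt a b) = 1 := by simp [nrd]
  obtain ⟨z, hz1, hz2, hz3⟩ := exists_z (c := c) H 1 x 1 (by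
    rw [hx, h1]
    simp)
  refine ⟨z, hz1, hz2 1 (by rw [hx, map_one, Units.val_one, one_mul]), fun y => ?_⟩
  rw [hz3]
  apply Oct.ext
  · rfl
  · change (algebraMap L E (nrd x * ρL (ρL (nrd x))) / algebraMap k E ((1 : kˣ) : k)) •
      (qup E 1 * y.snd * star (qmap ρ (psiL α q x))) = y.snd * star (qmap ρ (psiL α q x))
    have h2 : qup E (1 : Qt a b) = 1 := by
      ext <;> simp [qup]
    rw [hx, h2, Units.val_one, map_one, map_one, map_one, mul_one, map_one, div_one, one_smul,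
      one_mul]

/-- An element of norm one of `Q₁` which is not in `L(i)`. -/
theorem exists_x1 : ∃ x : Qt (up L a) (q * up L b), nrd x = 1 ∧
    (psiL α q x : Qt (up E a) (up E b)).imJ + (psiL α q x : Qt (up E a) (up E b)).imK * α ≠ 0 := by
  obtain ⟨w, hwa, hwb, -, hq, -, -⟩ := H.cp
  have e2 : ((q * up L b : Lˣ) : L) = q * algebraMap k L b := rfl
  have e1 : ((up L a : Lˣ) : L) = algebraMap k L a := rfl
  have hB : (1 : L) - (q : L) * algebraMap k L (b : k) ≠ 0 := by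
    intro h0
    have h1 := congrArg w h0
    rw [map_sub, map_mul, map_one, map_zero] at h1
    nlinarith
  have h2 : (2 : E) ≠ 0 := NeZero.ne _
  have h2L : (2 : L) ≠ 0 := by
    intro h0
    apply h2
    rw [← map_ofNat (algebraMap L E) 2, h0, map_zero]
  refine ⟨⟨(1 + (q : L) * algebraMap k L (b : k)) / (1 - (q : L) * algebraMap k L (b : k)), 0,
    2 / (1 - (q : L) * algebraMap k L (b : k)), 0⟩, ?_, ?_⟩
  · simp only [nrd, e1, e2]
    field_simp
    ring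
  · obtain ⟨s, s', t, t', h3, h4⟩ := ex_mk4 (b := b) H.α2
      (psiL α q (⟨(1 + (q : L) * algebraMap k L (b : k)) / (1 - (q : L) * algebraMap k L (b : k)),
        0, 2 / (1 - (q : L) * algebraMap k L (b : k)), 0⟩ : Qt (up L a) (q * up L b)))
    rw [← h4]
    have h5 := psiL_eq H (⟨(1 + (q : L) * algebraMap k L (b : k)) /
      (1 - (q : L) * algebraMap k L (b : k)), 0, 2 / (1 - (q : L) * algebraMap k L (b : k)), 0⟩ :
        Qt (up L a) (q * up L b))
    rw [h3] at h5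
    obtain ⟨-, -, h6, -⟩ := mk4_inj H.α2 h5
    rw [h6]
    have hq0 : algebraMap L E (q : L) ≠ 0 :=
      (map_ne_zero_iff _ (algebraMap L E).injective).2 q.ne_zero
    refine mul_ne_zero hq0 ?_
    rw [map_zero, zero_mul, add_zero]
    exact (map_ne_zero_iff _ (algebraMap L E).injective).2 (div_ne_zero h2L hB)

/-- **The base chain**, made of elements with multiplier one of the centralisers. -/
theorem exists_base [NeZero (2 : k)] : ∃ (y1 y2 y3 : AT ρ σ α a b c q) (b' c' : kˣ)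
    (j l : Oct a b c) (h : Trip a b' c' gi j l), y1 ∈ stab0 ρ σ α a b c q ∧
      y2 ∈ stab ρ σ α q h ∧ y3 ∈ stab0 ρ σ α a b c q ∧ IsKap ρ y1.1 (1 : Lˣ) ∧
      IsKap ρ y2.1 (1 : Lˣ) ∧ IsKap ρ y3.1 (1 : Lˣ) ∧
      Nb ρ (y3.1 (vl α a b c)) (vl α a b c) ∧
      bil (y1.1 (y2.1 (y3.1 (vl α a b c)))) (vl α a b c) ≠ 0 ∧
      bil (y1.1 (y2.1 (vl α a b c))) (vl α a b c) = 0 ∧
      ∃ c0 : E, c0 ≠ 0 ∧ tri ρ (y1.1 (y2.1 (vl α a b c))) (vl α a b c) =
        c0 • y1.1 (vl α a b c) := by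
  obtain ⟨x, hx, hT⟩ := exists_x1 (b := b) H
  obtain ⟨z, hz1, hz2, hz3⟩ := exists_short H x hx
  have H' := hyTrip H (trip_jl a b c)
  obtain ⟨x', hx', hT'⟩ := exists_x1 H'
  obtain ⟨z', hz1', hz2', hz3'⟩ := exists_short H' x' hx'
  have n1 : nrd (psiL α q x : Qt (up E a) (up E b)) = 1 := by
    rw [nrd_psiL H, hx, map_one]
  have n2 : nrd (psiL α q x' : Qt (up E a) (up E (-(b * c)))) = 1 := by
    rw [nrd_psiL H', hx', map_one]
  have g1 : ∀ u v, z.1 (tri ρ u v) = tri ρ (z.1 u) (z.1 v) := fun u v => by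
    rw [hz2, Units.val_one, map_one, one_smul]
  have b1 : ∀ u v, bil (z.1 u) (z.1 v) = bil u v := fun u v => by
    have h1 := bil_kap H.ρ3 hz2 u v
    rwa [Units.val_one, map_one, map_one, map_one, one_mul, one_mul] at h1
  have h2 : ∀ y : OctL E a (-(b * c)) c, (cjA ρ σ α q (trip_jl a b c) z').1
      (tripO E (trip_jl a b c) y) = tripO E (trip_jl a b c) (shortFun ρ (psiL α q x') y) := by
    intro y
    change cjE (tripO E (trip_jl a b c)) z'.1 (tripO E (trip_jl a b c) y) = _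
    rw [cj_apply, hz3']
  have key := base_chain (trip_jl a b c) H.ρ3 H.α2 H.ρα n1 n2 hT hT' hT hz3 h2 hz3 g1 b1
  refine ⟨z, cjA ρ σ α q (trip_jl a b c) z', z, _, _, _, _, trip_jl a b c, hz1,
    (cjA_mem_stab _).2 hz1', hz1, hz2, cj_isKap _ hz2', hz2, ?_, key.1, key.2.1, key.2.2⟩
  obtain ⟨s, s', t, t', h3, -⟩ := ex_mk4 (b := b) H.α2 (psiL α q x : Qt (up E a) (up E b))
  rw [hz3, h3, sh_vl H.α2 H.ρα, sub_eq_add_neg, ← neg_smul]
  constructor
  · have := tri_vl_vl (a := a) (b := b) (c := c) H.α2 H.ρα (ρ s') (-ρ t) 1 0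
    rwa [one_smul, zero_smul, add_zero] at this
  · have := tri_vl_vl (a := a) (b := b) (c := c) H.α2 H.ρα 1 0 (ρ s') (-ρ t)
    rwa [one_smul, zero_smul, add_zero] at this

theorem pt_vl : Pt ρ (vl α a b c) := by
  constructor
  · intro h0
    have h1 := congrArg (fun y : OctL E a b c => y.snd) h0
    have h2 : D4X.mk4 (up E a) (up E b) α 1 0 0 0 = D4X.mk4 (up E a) (up E b) α 0 0 0 0 := by
      rw [mk4_zero]
      exact h1
    exact one_ne_zero (mk4_inj H.α2 h2).1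
  · have := tri_vl_vl (a := a) (b := b) (c := c) H.α2 H.ρα 1 0 1 0
    rwa [one_smul, zero_smul, add_zero] at this

theorem hh_vl_ne : hh ρ σ α q (vl α a b c) ≠ 0 := by
  have h1 := hh_line (ρ := ρ) (b := b) (c := c) (q := q) H.α2 H.σα 1 0
  rw [vl, h1, map_one, map_zero]
  have e1 : algebraMap L E (q : L) ≠ 0 := (map_ne_zero _).2 q.ne_zero
  have e2 : algebraMap k E (c : k) ≠ 0 := (map_ne_zero _).2 c.ne_zero
  have e3 : ρ (algebraMap L E (q : L)) ≠ 0 := (map_ne_zero_iff _ ρ.injective).2 e1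
  rw [mul_zero, mul_zero, sub_zero, mul_one, mul_one]
  exact mul_ne_zero (neg_ne_zero.2 e2) (mul_ne_zero e1 e3)

theorem ppp_vl [NumberField k] {P : Subgroup Lˣ}
    (hP : ∀ κ : Lˣ, (∀ w : L →+* ℝ, w (algebraMap k L a) < 0 → 0 < w κ) → κ ∈ P) :
    PPP P ρ σ α q (vl α a b c) := by
  have h1 := line1P H hP (c := c) 1 0 (by
    rw [map_one, map_zero, mul_one, mul_zero, mul_zero, zero_div, sub_zero]
    exact PosL.one)
  rw [vl_eq, oup_gl]
  rwa [one_smul, zero_smul, add_zero] at h1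

/-- **The data of the base chain.** -/
theorem base_data [NeZero (2 : k)] (P : Subgroup Lˣ) : ∃ p u0 z0 : OctL E a b c,
    Pt ρ p ∧ Pt ρ u0 ∧ Nb ρ p u0 ∧ (∀ t : E, u0 ≠ t • p) ∧ bil p (vl α a b c) ≠ 0 ∧
      bil u0 (vl α a b c) = 0 ∧ (∃ s : E, s ≠ 0 ∧ tri ρ u0 (vl α a b c) = s • z0) ∧
      hh ρ σ α q p = hh ρ σ α q (vl α a b c) ∧ hh ρ σ α q u0 = hh ρ σ α q (vl α a b c) ∧
      hh ρ σ α q z0 = hh ρ σ α q (vl α a b c) ∧
      (PPP P ρ σ α q (vl α a b c) → PPP P ρ σ α q p) := by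
  obtain ⟨y1, y2, y3, b', c', j, l, h, m1, m2, m3, k1, k2, k3, hn, c1, c2, c3⟩ := exists_base H
    (c := c)
  have hhk : ∀ {y : AT ρ σ α a b c q} (_ : IsKap ρ y.1 (1 : Lˣ)) (v : OctL E a b c),
      hh ρ σ α q (y.1 v) = hh ρ σ α q v := by
    intro y hy v
    have h1 := hh_kap H.ρ3 y hy v
    rwa [Units.val_one, map_one, map_one, map_one, one_mul, one_mul] at h1
  have hk : ∀ {y : AT ρ σ α a b c q} (_ : IsKap ρ y.1 (1 : Lˣ)), kap y ∈ P := fun hy => by
    rw [kap_eq hy]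
    exact P.one_mem
  have hv := pt_vl H (c := c) (b := b)
  have q1 : Pt ρ (y1.1 (y2.1 (y3.1 (vl α a b c)))) := pt_AT y1 (pt_AT y2 (pt_AT y3 hv))
  have q2 : Pt ρ (y1.1 (y2.1 (vl α a b c))) := pt_AT y1 (pt_AT y2 hv)
  refine ⟨y1.1 (y2.1 (y3.1 (vl α a b c))), y1.1 (y2.1 (vl α a b c)), y1.1 (vl α a b c), q1, q2,
    nb_AT y1 (nb_AT y2 hn), ?_, c1, c2, c3, ?_, ?_, ?_, ?_⟩
  · intro t ht
    have h1 : t = 0 := by
      have h2 := c2
      rw [ht, bil_smul_left] at h2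
      exact (mul_eq_zero.1 h2).resolve_right c1
    exact q2.1 (by rw [ht, h1, zero_smul])
  · rw [hhk k1, hhk k2, hhk k3]
  · rw [hhk k1, hhk k2]
  · rw [hhk k1]
  · intro hP
    exact PPP_AT (mem_stabsP0 (hk k1) m1) (PPP_AT (mem_stabsP (hk k2) h m2)
      (PPP_AT (mem_stabsP0 (hk k3) m3) hP))

end Vale.Agent.P011.D4X.H862
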