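import Vale.Agent.P011.D4X.H657.Zx
import Vale.Agent.P011.D4X.H691.Ch
import Vale.Agent.P011.D4X.H493.Conn
import Vale.Agent.P011.D4.BMove

/-!
Block D4X: the base chain, moved by short elements.
-/

open Vale.Agent.P011.MPQ Vale.Agent.P011.D4 Vale.Agent.P011.D4.Oct Vale.Agent.P011.D4.H24
open Vale.Agent.P011.E6

namespace Vale.Agent.P011.D4X.H862

section base

variable {k E : Type} [Field k] [Field E] [Algebra k E] [NeZero (2 : E)] {a b c : kˣ}
  {ρ : E ≃ₐ[k] E} {α : E}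

/-- The standard singular vector `e₊ l`. -/
def vl (α : E) (a b c : kˣ) : OctL E a b c := ⟨0, mk4 (up E a) (up E b) α 1 0 0 0⟩

/-- The vector `e₋ (j l)`. -/
def vm (α : E) (a b c : kˣ) : OctL E a b c := ⟨0, mk4 (up E a) (up E b) α 0 0 1 0⟩

/-- The vector `e₋ j`. -/
def vj (α : E) (a b c : kˣ) : OctL E a b c := ⟨mk4 (up E a) (up E b) α 0 0 0 1, 0⟩

theorem sh_vl (hα : α * α = algebraMap k E a) (ρα : ρ α = α) (s s' t t' : E) :
    shortFun ρ (mk4 (up E a) (up E b) α s s' t t') (vl α a b c) =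
      ρ s' • vl α a b c - ρ t • vm α a b c := by
  have hα' : α * α = ((up E a : Eˣ) : E) := hα
  have h1 : (ρ s' • vl α a b c - ρ t • vm α a b c : OctL E a b c) =
      ⟨0, mk4 (up E a) (up E b) α (ρ s') 0 (-ρ t) 0⟩ := by
    rw [vl, vm]
    apply Oct.ext
    · change ρ s' • (0 : Qt (up E a) (up E b)) - ρ t • (0 : Qt (up E a) (up E b)) = 0
      rw [smul_zero, smul_zero, sub_zero]
    · change ρ s' • mk4 (up E a) (up E b) α 1 0 0 0 - ρ t • mk4 (up E a) (up E b) α 0 0 1 0 = _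
      rw [sub_eq_add_neg, ← neg_smul, smul_mk4, smul_mk4, add_mk4]
      simp
  rw [h1]
  apply Oct.ext
  · change _ * (0 : Qt (up E a) (up E b)) * _ = 0
    rw [mul_zero, zero_mul]
  · change mk4 (up E a) (up E b) α 1 0 0 0 * star (qmap ρ (mk4 (up E a) (up E b) α s s' t t')) = _
    rw [qmap_mk4 ρα, star_mk4, mk4_mul hα']
    simp

theorem sh_vj (hα : α * α = algebraMap k E a) (ρα : ρ α = α) (s s' t t' : E) :
    shortFun ρ (mk4 (up E a) (up E b) α s s' t t') (vj α a b c) =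
      ⟨mk4 (up E a) (up E b) α (((up E b : Eˣ) : E) * t * ρ (ρ s'))
        (-(((up E b : Eˣ) : E) * s' * ρ (ρ t))) (-(((up E b : Eˣ) : E) * t * ρ (ρ t)))
        (s' * ρ (ρ s')), 0⟩ := by
  have hα' : α * α = ((up E a : Eˣ) : E) := hα
  apply Oct.ext
  · change mk4 (up E a) (up E b) α s s' t t' * mk4 (up E a) (up E b) α 0 0 0 1 *
      star (qmap ρ (qmap ρ (mk4 (up E a) (up E b) α s s' t t'))) = _
    rw [qmap_mk4 ρα, qmap_mk4 ρα, star_mk4, mk4_mul hα', mk4_mul hα']
    change D4X.mk4 _ _ _ _ _ _ _ = D4X.mk4 _ _ _ _ _ _ _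
    congr 1
    all_goals ring
  · change (0 : Qt (up E a) (up E b)) * _ = 0
    rw [zero_mul]

theorem tri_vl (ρα : ρ α = α) (hα : α * α = algebraMap k E a) (A1 A2 A3 A4 : E) :
    tri ρ (vl α a b c) ⟨mk4 (up E a) (up E b) α A1 A2 A3 A4, 0⟩ =
      -(ρ (ρ A1) • vl α a b c + ρ (ρ A3) • vm α a b c) := by
  have hα' : α * α = ((up E a : Eˣ) : E) := hα
  have h1 : (-(ρ (ρ A1) • vl α a b c + ρ (ρ A3) • vm α a b c) : OctL E a b c) =
      ⟨0, mk4 (up E a) (up E b) α (-ρ (ρ A1)) 0 (-ρ (ρ A3)) 0⟩ := by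
    rw [vl, vm]
    apply Oct.ext
    · change -(ρ (ρ A1) • (0 : Qt (up E a) (up E b)) + ρ (ρ A3) • (0 : Qt (up E a) (up E b))) = 0
      rw [smul_zero, smul_zero, add_zero, neg_zero]
    · change -(ρ (ρ A1) • mk4 (up E a) (up E b) α 1 0 0 0 +
        ρ (ρ A3) • mk4 (up E a) (up E b) α 0 0 1 0) = _
      rw [← neg_one_smul E, smul_add, smul_smul, smul_smul, smul_mk4, smul_mk4, add_mk4]
      simp
  rw [h1, vl]
  have o1 : ∀ (τ : E ≃ₐ[k] E) (x : OctL E a b c), (omap τ x).fst = qmap τ x.fst := fun _ _ => rfl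
  have o2 : ∀ (τ : E ≃ₐ[k] E) (x : OctL E a b c), (omap τ x).snd = qmap τ x.snd := fun _ _ => rfl
  apply Oct.ext
  · simp only [tri, fst_mul, o1, o2, fst_star, snd_star, star_zero, qmap_zero, zero_mul,
      neg_zero, smul_zero, add_zero]
  · simp only [tri, snd_mul, o1, o2, fst_star, snd_star, star_zero, qmap_zero, zero_mul,
      neg_zero, zero_add, qmap_neg]
    rw [← qmap_star ρ, ← qmap_star ρ, star_star, qmap_mk4 ρα, qmap_mk4 ρα, qmap_mk4 ρα,
      ← neg_one_smul E, smul_mk4, mk4_mul hα', map_one, map_zero]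
    congr 1
    all_goals ring

/-- The bilinear form in the splitting. -/
theorem bil_mk4 (hα : α * α = algebraMap k E a) (s s' t t' u u' v v' p p' r r' x x' y y' : E) :
    bil (⟨mk4 (up E a) (up E b) α s s' t t', mk4 (up E a) (up E b) α u u' v v'⟩ : OctL E a b c)
      ⟨mk4 (up E a) (up E b) α p p' r r', mk4 (up E a) (up E b) α x x' y y'⟩ =
      s * p' + s' * p - ((up E b : Eˣ) : E) * (t * r' + t' * r) -
        ((up E c : Eˣ) : E) * (u * x' + u' * x - ((up E b : Eˣ) : E) * (v * y' + v' * y)) := by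
  have hα' : α * α = ((up E a : Eˣ) : E) := hα
  have h : ∀ A B : Qt (up E a) (up E b), norm (⟨A, B⟩ : OctL E a b c) =
      nrd A - ((up E c : Eˣ) : E) * nrd B := fun _ _ => rfl
  have h2 : (⟨mk4 (up E a) (up E b) α s s' t t', mk4 (up E a) (up E b) α u u' v v'⟩ +
      ⟨mk4 (up E a) (up E b) α p p' r r', mk4 (up E a) (up E b) α x x' y y'⟩ : OctL E a b c) =
      ⟨mk4 (up E a) (up E b) α (s + p) (s' + p') (t + r) (t' + r'),
        mk4 (up E a) (up E b) α (u + x) (u' + x') (v + y) (v' + y')⟩ := by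
    rw [← add_mk4, ← add_mk4]
    rfl
  rw [bil, h2, h, h, h, nrd_mk4 hα', nrd_mk4 hα', nrd_mk4 hα', nrd_mk4 hα', nrd_mk4 hα',
    nrd_mk4 hα']
  ring

/-- Short elements. -/
theorem shortFun_mul' (x y : Qt (up E a) (up E b)) (z : OctL E a b c) :
    shortFun ρ (x * y) z = shortFun ρ x (shortFun ρ y z) := by
  apply Oct.ext
  · change _ * _ * star (qmap ρ (qmap ρ (_ * _))) = _ * (_ * _ * star (qmap ρ (qmap ρ _))) *
      star (qmap ρ (qmap ρ _))
    rw [qmap_mul, qmap_mul, star_mul]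
    simp only [mul_assoc]
  · change _ * star (qmap ρ (_ * _)) = _ * star (qmap ρ _) * star (qmap ρ _)
    rw [qmap_mul, star_mul, mul_assoc]

theorem shortFun_one' (z : OctL E a b c) : shortFun ρ (1 : Qt (up E a) (up E b)) z = z := by
  apply Oct.ext
  · change 1 * _ * star (qmap ρ (qmap ρ 1)) = _
    rw [qmap_one, qmap_one, star_one, one_mul, mul_one]
  · change _ * star (qmap ρ 1) = _
    rw [qmap_one, star_one, mul_one]

theorem shortFun_smul' (x : Qt (up E a) (up E b)) (t : E) (z : OctL E a b c) :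
    shortFun ρ x (t • z) = t • shortFun ρ x z := by
  apply Oct.ext
  · change _ * (t • _) * _ = t • (_ * _ * _)
    rw [mul_smul_comm, smul_mul_assoc]
  · change (t • _) * _ = t • (_ * _)
    rw [smul_mul_assoc]

theorem shortFun_add' (x : Qt (up E a) (up E b)) (z w : OctL E a b c) :
    shortFun ρ x (z + w) = shortFun ρ x z + shortFun ρ x w := by
  apply Oct.ext
  · change _ * (_ + _) * _ = _ * _ * _ + _ * _ * _
    rw [mul_add, add_mul]
  · change (_ + _) * _ = _ * _ + _ * _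
    rw [add_mul]

/-- The three steps in the coordinates of the second trip. The vector `vl` is on the second line,
the vector `vj` is the direction of the first line. -/
theorem tri_step (hρ3 : ∀ x, ρ (ρ (ρ x)) = x) (hα : α * α = algebraMap k E a) (ρα : ρ α = α)
    {s s' t t' : E} :
    tri ρ (vl α a b c) (shortFun ρ (mk4 (up E a) (up E b) α s' s (-t) (-t')) (vj α a b c)) =
      (((up E b : Eˣ) : E) * ρ (ρ t)) •
        shortFun ρ (mk4 (up E a) (up E b) α s' s (-t) (-t')) (vl α a b c) := by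
  have hb : ρ ((up E b : Eˣ) : E) = ((up E b : Eˣ) : E) := ρ.commutes _
  rw [sh_vj hα ρα, sh_vl hα ρα, tri_vl ρα hα]
  simp only [map_neg, map_mul, hb, hρ3]
  module

theorem bil_vl_vj (hα : α * α = algebraMap k E a) (x y : E) :
    bil (x • vl α a b c + y • vm α a b c) (vj α a b c) = 0 := by
  have h1 : (x • vl α a b c + y • vm α a b c : OctL E a b c) =
      ⟨mk4 (up E a) (up E b) α 0 0 0 0, mk4 (up E a) (up E b) α x 0 y 0⟩ := by
    rw [vl, vm]
    apply Oct.ext
    · change x • (0 : Qt (up E a) (up E b)) + y • (0 : Qt (up E a) (up E b)) = _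
      rw [smul_zero, smul_zero, add_zero, mk4_zero]
    · change x • mk4 (up E a) (up E b) α 1 0 0 0 + y • mk4 (up E a) (up E b) α 0 0 1 0 = _
      rw [smul_mk4, smul_mk4, add_mk4]
      simp
  have h2 : (vj α a b c : OctL E a b c) =
      ⟨mk4 (up E a) (up E b) α 0 0 0 1, mk4 (up E a) (up E b) α 0 0 0 0⟩ := by
    rw [vj, mk4_zero]
  rw [h1, h2, bil_mk4 hα]
  ring

theorem bil_line (hα : α * α = algebraMap k E a) (x y x' y' : E) :
    bil (x • vl α a b c + y • vm α a b c) (x' • vl α a b c + y' • vm α a b c) = 0 := by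
  have h1 : ∀ x y : E, (x • vl α a b c + y • vm α a b c : OctL E a b c) =
      ⟨mk4 (up E a) (up E b) α 0 0 0 0, mk4 (up E a) (up E b) α x 0 y 0⟩ := by
    intro x y
    rw [vl, vm]
    apply Oct.ext
    · change x • (0 : Qt (up E a) (up E b)) + y • (0 : Qt (up E a) (up E b)) = _
      rw [smul_zero, smul_zero, add_zero, mk4_zero]
    · change x • mk4 (up E a) (up E b) α 1 0 0 0 + y • mk4 (up E a) (up E b) α 0 0 1 0 = _
      rw [smul_mk4, smul_mk4, add_mk4]
      simp
  rw [h1, h1, bil_mk4 hα]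
  ring

theorem bil_sh_vj (hα : α * α = algebraMap k E a) (ρα : ρ α = α) (s s' t t' : E) :
    bil (shortFun ρ (mk4 (up E a) (up E b) α s s' t t') (vj α a b c)) (vj α a b c) =
      ((up E b : Eˣ) : E) ^ 2 * t * ρ (ρ t) := by
  rw [sh_vj hα ρα]
  have h2 : (vj α a b c : OctL E a b c) =
      ⟨mk4 (up E a) (up E b) α 0 0 0 1, mk4 (up E a) (up E b) α 0 0 0 0⟩ := by
    rw [vj, mk4_zero]
  rw [h2, ← mk4_zero (a := up E a) (b := up E b) (α := α), bil_mk4 hα]
  ring

theorem tri_vl_vl (hα : α * α = algebraMap k E a) (ρα : ρ α = α) (x y x' y' : E) :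
    tri ρ (x • vl α a b c + y • vm α a b c) (x' • vl α a b c + y' • vm α a b c) = 0 := by
  have hα' : α * α = ((up E a : Eˣ) : E) := hα
  have h1 : ∀ x y : E, (x • vl α a b c + y • vm α a b c : OctL E a b c) =
      ⟨0, mk4 (up E a) (up E b) α x 0 y 0⟩ := by
    intro x y
    rw [vl, vm]
    apply Oct.ext
    · change x • (0 : Qt (up E a) (up E b)) + y • (0 : Qt (up E a) (up E b)) = _
      rw [smul_zero, smul_zero, add_zero]
    · change x • mk4 (up E a) (up E b) α 1 0 0 0 + y • mk4 (up E a) (up E b) α 0 0 1 0 = _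
      rw [smul_mk4, smul_mk4, add_mk4]
      simp
  rw [h1, h1]
  have o1 : ∀ (τ : E ≃ₐ[k] E) (x : OctL E a b c), (omap τ x).fst = qmap τ x.fst := fun _ _ => rfl
  have o2 : ∀ (τ : E ≃ₐ[k] E) (x : OctL E a b c), (omap τ x).snd = qmap τ x.snd := fun _ _ => rfl
  apply Oct.ext
  · simp only [tri, fst_mul, o1, o2, fst_star, snd_star, star_zero, qmap_zero, zero_mul,
      zero_add, qmap_neg, star_neg, neg_mul_neg]
    rw [qmap_mk4 ρα, qmap_mk4 ρα, qmap_mk4 ρα, star_mk4, mk4_mul hα']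
    simp only [map_zero, mul_zero, zero_mul, add_zero, neg_zero, mk4_zero, smul_zero]
    rfl
  · simp only [tri, snd_mul, o1, o2, fst_star, snd_star, star_zero, qmap_zero, zero_mul,
      mul_zero, add_zero]
    rfl

theorem bil_sh_vl (hα : α * α = algebraMap k E a) (ρα : ρ α = α) (s s' t t' : E) :
    bil (shortFun ρ (mk4 (up E a) (up E b) α s s' t t') (vj α a b c)) (vl α a b c) = 0 := by
  rw [sh_vj hα ρα]
  rw [vl, ← mk4_zero (a := up E a) (b := up E b) (α := α), bil_mk4 hα]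
  ring

theorem ep_fst : (ep α : OctL E a b c).fst = D4X.mk4 (up E a) (up E b) α 1 0 0 0 := by
  ext
  · change (1 : E) / 2 = (1 + 0) / 2
    rw [add_zero]
  · change (1 : E) / (2 * α) = (1 - 0) / (2 * α)
    rw [sub_zero]
  · change (0 : E) = (0 + 0) / 2
    simp
  · change (0 : E) = (0 - 0) / (2 * α)
    simp

theorem em_fst (hα : α * α = algebraMap k E a) :
    (1 - ep α : OctL E a b c).fst = D4X.mk4 (up E a) (up E b) α 0 1 0 0 := by
  have h2 : (2 : E) ≠ 0 := NeZero.ne _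
  have h0 := al_ne (a := up E a) hα
  rw [fst_sub, fst_one, ep_fst, ← mk4_one (a := up E a) (b := up E b) (α := α), sub_eq_add_neg,
    ← neg_one_smul E, smul_mk4, add_mk4]
  simp

theorem mj : (⟨0, 0, 1, 0⟩ : Qt (up E a) (up E b)) = D4X.mk4 (up E a) (up E b) α 0 0 1 1 := by
  have h2 : (2 : E) ≠ 0 := NeZero.ne _
  ext
  · change (0 : E) = (0 + 0) / 2
    simp
  · change (0 : E) = (0 - 0) / (2 * α)
    simp
  · change (1 : E) = (1 + 1) / 2
    field_simp
    norm_num
  · change (0 : E) = (1 - 1) / (2 * α)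
    simp

theorem vl_eq : vl α a b c = ep α * oup E (gl : Oct a b c) := by
  rw [oup_gl, vl]
  apply Oct.ext
  · change (0 : Qt (up E a) (up E b)) = (ep α : OctL E a b c).fst * 0 +
      ((up E c : Eˣ) : E) • (star (1 : Qt (up E a) (up E b)) * (0 : Qt (up E a) (up E b)))
    rw [mul_zero, mul_zero, smul_zero, add_zero]
  · change _ = (1 : Qt (up E a) (up E b)) * (ep α : OctL E a b c).fst +
      (0 : Qt (up E a) (up E b)) * star (0 : Qt (up E a) (up E b))
    rw [one_mul, zero_mul, add_zero, ep_fst]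

theorem vj_eq (hα : α * α = algebraMap k E a) :
    vj α a b c = (1 - ep α) * oup E (gj : Oct a b c) := by
  have hα' : α * α = ((up E a : Eˣ) : E) := hα
  rw [oup_gj, vj]
  apply Oct.ext
  · change _ = (1 - ep α : OctL E a b c).fst * (⟨0, 0, 1, 0⟩ : Qt (up E a) (up E b)) +
      ((up E c : Eˣ) : E) • (star (0 : Qt (up E a) (up E b)) * (1 - ep α : OctL E a b c).snd)
    rw [star_zero, zero_mul, smul_zero, add_zero, em_fst hα, mj (α := α), mk4_mul hα']
    simp
  · change (0 : Qt (up E a) (up E b)) = (0 : Qt (up E a) (up E b)) *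
      (1 - ep α : OctL E a b c).fst + (1 - ep α : OctL E a b c).snd * star _
    have h : (1 - ep α : OctL E a b c).snd = 0 := by
      rw [snd_sub, snd_one]
      change (0 : Qt (up E a) (up E b)) - 0 = 0
      rw [sub_zero]
    rw [h, zero_mul, zero_mul, add_zero]

theorem vm_eq (hα : α * α = algebraMap k E a) :
    vm α a b c = (1 - ep α) * oup E ((gj : Oct a b c) * gl) := by
  have hα' : α * α = ((up E a : Eˣ) : E) := hα
  have h : (oup E ((gj : Oct a b c) * gl) : OctL E a b c) = ⟨0, ⟨0, 0, 1, 0⟩⟩ := by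
    rw [oup_mul, oup_gl, oup_gj]
    apply Oct.ext
    · change (⟨0, 0, 1, 0⟩ : Qt (up E a) (up E b)) * 0 + ((up E c : Eˣ) : E) •
        (star (1 : Qt (up E a) (up E b)) * (0 : Qt (up E a) (up E b))) = 0
      rw [mul_zero, mul_zero, smul_zero, add_zero]
    · change (1 : Qt (up E a) (up E b)) * (⟨0, 0, 1, 0⟩ : Qt (up E a) (up E b)) +
        (0 : Qt (up E a) (up E b)) * star (0 : Qt (up E a) (up E b)) = _
      rw [one_mul, zero_mul, add_zero]
  rw [h, vm]
  apply Oct.ext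
  · change (0 : Qt (up E a) (up E b)) = (1 - ep α : OctL E a b c).fst * 0 +
      ((up E c : Eˣ) : E) • (star (⟨0, 0, 1, 0⟩ : Qt (up E a) (up E b)) *
        (1 - ep α : OctL E a b c).snd)
    have h : (1 - ep α : OctL E a b c).snd = 0 := by
      rw [snd_sub, snd_one]
      change (0 : Qt (up E a) (up E b)) - 0 = 0
      rw [sub_zero]
    rw [h, mul_zero, mul_zero, smul_zero, add_zero]
  · change _ = (⟨0, 0, 1, 0⟩ : Qt (up E a) (up E b)) * (1 - ep α : OctL E a b c).fst +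
      (1 - ep α : OctL E a b c).snd * star (0 : Qt (up E a) (up E b))
    rw [star_zero, mul_zero, add_zero, em_fst hα, mj (α := α), mk4_mul hα']
    simp
    rfl

theorem tri_line_vj (ρα : ρ α = α) (hα : α * α = algebraMap k E a) (x y : E) :
    tri ρ (x • vl α a b c + y • vm α a b c) (vj α a b c) =
      (-(((up E b : Eˣ) : E) * ρ y)) • vl α a b c := by
  have hα' : α * α = ((up E a : Eˣ) : E) := hα
  have h1 : (x • vl α a b c + y • vm α a b c : OctL E a b c) =
      ⟨0, mk4 (up E a) (up E b) α x 0 y 0⟩ := by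
    rw [vl, vm]
    apply Oct.ext
    · change x • (0 : Qt (up E a) (up E b)) + y • (0 : Qt (up E a) (up E b)) = _
      rw [smul_zero, smul_zero, add_zero]
    · change x • mk4 (up E a) (up E b) α 1 0 0 0 + y • mk4 (up E a) (up E b) α 0 0 1 0 = _
      rw [smul_mk4, smul_mk4, add_mk4]
      simp
  have h2 : ((-(((up E b : Eˣ) : E) * ρ y)) • vl α a b c : OctL E a b c) =
      ⟨0, mk4 (up E a) (up E b) α (-(((up E b : Eˣ) : E) * ρ y)) 0 0 0⟩ := by
    rw [vl]
    apply Oct.ext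
    · change (-(((up E b : Eˣ) : E) * ρ y)) • (0 : Qt (up E a) (up E b)) = 0
      rw [smul_zero]
    · change (-(((up E b : Eˣ) : E) * ρ y)) • mk4 (up E a) (up E b) α 1 0 0 0 = _
      rw [smul_mk4]
      simp
  rw [h1, h2, vj]
  have o1 : ∀ (τ : E ≃ₐ[k] E) (x : OctL E a b c), (omap τ x).fst = qmap τ x.fst := fun _ _ => rfl
  have o2 : ∀ (τ : E ≃ₐ[k] E) (x : OctL E a b c), (omap τ x).snd = qmap τ x.snd := fun _ _ => rfl
  apply Oct.ext
  · simp only [tri, fst_mul, o1, o2, fst_star, snd_star, star_zero, qmap_zero, zero_mul, mul_zero,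
      neg_zero, smul_zero, add_zero]
  · simp only [tri, snd_mul, o1, o2, fst_star, snd_star, star_zero, qmap_zero, zero_mul,
      mul_zero, neg_zero, zero_add, add_zero, qmap_neg]
    rw [← qmap_star ρ, ← qmap_star ρ, star_star, qmap_mk4 ρα, qmap_mk4 ρα, qmap_mk4 ρα,
      ← neg_one_smul E, smul_mk4, mk4_mul hα', map_one, map_zero]
    congr 1
    all_goals simp
    all_goals ring

theorem ex_mk4 (hα : α * α = algebraMap k E a) (X : Qt (up E a) (up E b)) :
    ∃ s s' t t' : E, X = mk4 (up E a) (up E b) α s s' t t' ∧ t = X.imJ + X.imK * α := by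
  have h2 : (2 : E) ≠ 0 := NeZero.ne _
  have h0 := al_ne (a := up E a) hα
  refine ⟨X.re + X.imI * α, X.re - X.imI * α, X.imJ + X.imK * α, X.imJ - X.imK * α, ?_, rfl⟩
  ext
  · change X.re = _ / 2
    field_simp
    ring
  · change X.imI = _ / (2 * α)
    field_simp
    ring
  · change X.imJ = _ / 2
    field_simp
    ring
  · change X.imK = _ / (2 * α)
    field_simp
    ring

/-! ### Change of coordinates -/

section chain

variable {b' : kˣ} (h : Trip a b' c (gi : Oct a b c) ((gj : Oct a b c) * gl) gl)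

include h in
theorem trip_ep : tripO E h (ep α) = ep α := by
  rw [tripO_apply]
  simp only [emb, qemb, ep, oup_gi, QuaternionAlgebra.re_zero, QuaternionAlgebra.imI_zero,
    QuaternionAlgebra.imJ_zero, QuaternionAlgebra.imK_zero, zero_smul, add_zero, zero_mul]
  apply ext8 <;> simp [gi] <;> first | exact mul_zero _ | exact mul_one _

include h in
theorem trip_vl : tripO E h (vl α a b' c) = vl α a b c := by
  rw [vl_eq, vl_eq, tripO_mul, trip_ep h, tripO_oup, B.emb_gl]

theorem trip_vj (hα : α * α = algebraMap k E a) : tripO E h (vj α a b' c) = vm α a b c := by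
  rw [vj_eq hα, vm_eq hα, tripO_mul, map_sub, hom_one (tripO_mul h), trip_ep h, tripO_oup,
    B.emb_gj]

theorem q_star_star {x : Qt (up E a) (up E b)} (hx : nrd x = 1) : star x * x = 1 := by
  rw [q_star_mul, hx, one_smul]

theorem q_mul_star1 {x : Qt (up E a) (up E b)} (hx : nrd x = 1) : x * star x = 1 := by
  rw [q_mul_star, hx, one_smul]

/-- **The base chain.** -/
theorem base_chain (hρ3 : ∀ x, ρ (ρ (ρ x)) = x) (hα : α * α = algebraMap k E a) (ρα : ρ α = α)
    {X1 X3 : Qt (up E a) (up E b)} {X2 : Qt (up E a) (up E b')} (n1 : nrd X1 = 1)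
    (n2 : nrd X2 = 1) (t1 : X1.imJ + X1.imK * α ≠ 0) (t2 : X2.imJ + X2.imK * α ≠ 0)
    (t3 : X3.imJ + X3.imK * α ≠ 0) {Y1 Y2 Y3 : OctL E a b c ≃ₗ[E] OctL E a b c}
    (h1 : ∀ y, Y1 y = shortFun ρ X1 y)
    (h2 : ∀ y : OctL E a b' c, Y2 (tripO E h y) = tripO E h (shortFun ρ X2 y))
    (h3 : ∀ y, Y3 y = shortFun ρ X3 y)
    (g1 : ∀ x y, Y1 (tri ρ x y) = tri ρ (Y1 x) (Y1 y))
    (b1 : ∀ x y, bil (Y1 x) (Y1 y) = bil x y) :
    bil (Y1 (Y2 (Y3 (vl α a b c)))) (vl α a b c) ≠ 0 ∧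
      bil (Y1 (Y2 (vl α a b c))) (vl α a b c) = 0 ∧
      ∃ c0 : E, c0 ≠ 0 ∧ tri ρ (Y1 (Y2 (vl α a b c))) (vl α a b c) = c0 • Y1 (vl α a b c) := by
  obtain ⟨s1, s1', u1, u1', rfl, hu1⟩ := ex_mk4 hα X1
  obtain ⟨s2, s2', u2, u2', rfl, hu2⟩ := ex_mk4 hα X2
  obtain ⟨s3, s3', u3, u3', rfl, hu3⟩ := ex_mk4 hα X3
  rw [← hu1] at t1
  rw [← hu2] at t2
  rw [← hu3] at t3
  clear hu1 hu2 hu3
  have hb0 : ((up E b' : Eˣ) : E) ≠ 0 := (up E b' : Eˣ).ne_zero
  have z0 : ∀ {x : E}, x ≠ 0 → ρ x ≠ 0 := fun hx => (map_ne_zero_iff _ ρ.injective).2 hx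
  -- the vector with image `vl`
  have e1 : Y1 (ρ s1 • vl α a b c + ρ u1 • vm α a b c) = vl α a b c := by
    have h5 : (ρ s1 • vl α a b c + ρ u1 • vm α a b c : OctL E a b c) =
        shortFun ρ (star (mk4 (up E a) (up E b) α s1 s1' u1 u1')) (vl α a b c) := by
      rw [star_mk4, sh_vl hα ρα, map_neg, neg_smul, sub_neg_eq_add]
    rw [h5, h1, ← shortFun_mul', q_mul_star1 n1, shortFun_one']
  have w1 : (ρ s1 • vl α a b c + ρ u1 • vm α a b c : OctL E a b c) =
      tripO E h (ρ s1 • vl α a b' c + ρ u1 • vj α a b' c) := by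
    rw [map_add, map_smul, map_smul, trip_vl, trip_vj h hα]
  have e2 : Y2 (vl α a b c) = tripO E h (ρ s2' • vl α a b' c + (-ρ u2) • vm α a b' c) := by
    conv_lhs => rw [← trip_vl h]
    rw [h2, sh_vl hα ρα, neg_smul, sub_eq_add_neg]
  have e3 : Y2 (vm α a b c) = tripO E h
      (shortFun ρ (mk4 (up E a) (up E b') α s2 s2' u2 u2') (vj α a b' c)) := by
    conv_lhs => rw [← trip_vj h hα]
    rw [h2]
  have hB : ∀ x y : OctL E a b' c, bil (tripO E h x) (tripO E h y) = bil x y :=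
    fun x y => hom_bil (tripO_mul h) x y
  have e4 : ∀ x y : E, bil (x • vl α a b' c + y • vm α a b' c) (vl α a b' c) = 0 := by
    intro x y
    have := bil_line (a := a) (b := b') (c := c) hα x y 1 0
    rwa [one_smul, zero_smul, add_zero] at this
  have e5 : ∀ A w : OctL E a b c, Y1 w = vl α a b c → bil (Y1 A) (vl α a b c) = bil A w := by
    intro A w hw
    rw [← b1 A w, hw]
  refine ⟨?_, ?_, ((up E b' : Eˣ) : E) * u1 * ρ (ρ u2), ?_, ?_⟩
  · have h6 : bil (Y1 (Y2 (Y3 (vl α a b c)))) (vl α a b c) =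
        -(ρ u3 * ρ u1 * (((up E b' : Eˣ) : E) ^ 2 * u2 * ρ (ρ u2))) := by
      rw [e5 _ _ e1, h3, sh_vl hα ρα, map_sub, map_smul, map_smul, e2, e3, w1,
        ← map_smul, ← map_smul, ← map_sub, hB, bil_sub_left, bil_smul_left, bil_smul_left,
        bil_add_right, bil_smul_right, bil_smul_right, e4, bil_vl_vj hα, bil_add_right,
        bil_smul_right, bil_smul_right, bil_sh_vl hα ρα, bil_sh_vj hα ρα]
      ring
    rw [h6]
    exact neg_ne_zero.2 (mul_ne_zero (mul_ne_zero (z0 t3) (z0 t1))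
      (mul_ne_zero (mul_ne_zero (pow_ne_zero 2 hb0) t2) (z0 (z0 t2))))
  · rw [e5 _ _ e1, e2, w1, hB, bil_add_right, bil_smul_right, bil_smul_right, e4, bil_vl_vj hα]
    ring
  · exact mul_ne_zero (mul_ne_zero hb0 t1) (z0 (z0 t2))
  · have h7 : tri ρ (ρ s2' • vl α a b' c + (-ρ u2) • vm α a b' c) (vl α a b' c) = 0 := by
      have := tri_vl_vl (a := a) (b := b') (c := c) hα ρα (ρ s2') (-ρ u2) 1 0
      rwa [one_smul, zero_smul, add_zero] at this
    have h8 : ∀ w : OctL E a b c, Y1 w = vl α a b c →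
        tri ρ (Y1 (Y2 (vl α a b c))) (vl α a b c) = Y1 (tri ρ (Y2 (vl α a b c)) w) := by
      intro w hw
      rw [g1, hw]
    rw [h8 _ e1, e2, w1, ← tripO_tri, tri_add_right, tri_smul_right, tri_smul_right, h7, smul_zero,
      zero_add, hρ3, tri_line_vj ρα hα, smul_smul, map_smul, map_smul, trip_vl]
    congr 1
    rw [map_neg]
    ring

end chain

end base

end Vale.Agent.P011.D4X.H862
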