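import Vale.Agent.P011.D4X.H862.Loc

/-!
Block D4X: existence of pure quaternions of given square.
-/

open NumberField IsDedekindDomain

namespace Vale.Agent.P011.D4X

open Vale.Agent.P011.Arith Vale.Agent.P011.MPQ Vale.Agent.P011.D4

section primes

theorem not_isUnit_prime {F : Type} [Field F] [NumberField F] {p : ℕ} (hpp : p.Prime) :
    ¬ IsUnit ((p : ℕ) : 𝓞 F) := by
  intro h
  have h1 : IsUnit (algebraMap ℤ (𝓞 F) (p : ℤ)) := by
    rw [map_natCast]
    exact h
  have h2 := isUnit_of_map_unit (algebraMap ℤ (𝓞 F)) _ h1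
  exact (Nat.prime_iff_prime_int.mp hpp).not_isUnit h2

theorem one_mem_of_coprime {R : Type} [CommRing R] (I : Ideal R) {m n : ℕ} (h : Nat.Coprime m n)
    (hm : (m : R) ∈ I) (hn : (n : R) ∈ I) : (1 : R) ∈ I := by
  have h3 := Nat.isCoprime_iff_coprime.mpr h
  obtain ⟨x, y, hxy⟩ := h3
  have h4 := congrArg (Int.cast : ℤ → R) hxy
  push_cast at h4
  rw [← h4]
  exact I.add_mem (I.mul_mem_left _ hm) (I.mul_mem_left _ hn)

theorem exists_prime_over {F : Type} [Field F] [NumberField F] {p : ℕ} (hpp : p.Prime) :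
    ∃ v : HeightOneSpectrum (𝓞 F), ((p : ℕ) : 𝓞 F) ∈ v.asIdeal := by
  obtain ⟨m, hm, hpm⟩ := exists_max_ideal_of_mem_nonunits (not_isUnit_prime (F := F) hpp)
  have hm0 : m ≠ ⊥ := by
    rintro rfl
    rw [Ideal.mem_bot] at hpm
    exact hpp.ne_zero (Nat.cast_injective (R := 𝓞 F) (by rw [hpm, Nat.cast_zero]))
  exact ⟨⟨m, hm.isPrime, hm0⟩, hpm⟩

theorem exists_notMem {F : Type} [Field F] [NumberField F] (S : Finset (HeightOneSpectrum (𝓞 F))) :
    ∃ v : HeightOneSpectrum (𝓞 F), v ∉ S := by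
  classical
  obtain ⟨f, hf⟩ : ∃ f : HeightOneSpectrum (𝓞 F) → ℕ, ∀ v, f v = Ideal.absNorm v.asIdeal :=
    ⟨_, fun _ => rfl⟩
  have hf0 : ∀ v, f v ≠ 0 := fun v => by
    rw [hf, Ne, Ideal.absNorm_eq_zero_iff]; exact v.ne_bot
  have hN0 : ∏ v ∈ S, f v ≠ 0 := Finset.prod_ne_zero_iff.mpr fun v _ => hf0 v
  obtain ⟨p, hp, hpp⟩ := Nat.exists_infinite_primes (∏ v ∈ S, f v + 1)
  obtain ⟨v, hv⟩ := exists_prime_over (F := F) hpp
  refine ⟨v, fun hS => ?_⟩
  obtain ⟨r, hr⟩ : f v ∣ ∏ v ∈ S, f v := Finset.dvd_prod_of_mem f hS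
  have h2 : ((f v : ℕ) : 𝓞 F) ∈ v.asIdeal := by
    rw [hf]
    exact Ideal.absNorm_mem _
  have h3 : Nat.Coprime (f v) p := by
    refine ((Nat.coprime_comm).mp ((Nat.Prime.coprime_iff_not_dvd hpp).mpr fun hd => ?_))
    have := Nat.le_of_dvd (Nat.pos_of_ne_zero hN0) (hd.trans ⟨r, hr⟩)
    omega
  exact v.isPrime.ne_top ((Ideal.eq_top_iff_one _).mpr (one_mem_of_coprime _ h3 h2 hv))


theorem odd_not_square {F : Type} [Field F] [NumberField F] {v : HeightOneSpectrum (𝓞 F)} {x : F}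
    (hx : v.valuation F x = WithZero.exp (-1)) : ¬ IsSquare x := by
  rintro ⟨r, rfl⟩
  have hr : v.valuation F r ≠ 0 := by
    intro h0
    rw [map_mul, h0, mul_zero] at hx
    exact WithZero.exp_ne_zero hx.symm
  obtain ⟨n, hn⟩ : ∃ n : ℤ, v.valuation F r = WithZero.exp n := ⟨_, (WithZero.exp_log hr).symm⟩
  rw [map_mul, hn, ← WithZero.exp_add, WithZero.exp_inj] at hx
  omega

end primes

section pure

variable {F : Type} [Field F] [NumberField F] {a b : Fˣ}

omit [NumberField F] in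
theorem not_isSquare_of_aniso (hab : Aniso a b) : ¬ IsSquare (a : F) := by
  rintro ⟨r, hr⟩
  have h := hab ⟨r, 1, 0, 0⟩ (by simp [nrd, hr]; ring)
  exact one_ne_zero (congrArg QuaternionAlgebra.imI h)

/-- A number which is not a square at the ramified places is the square of a pure quaternion. -/
theorem exists_pure (ha : ¬ IsSquare (a : F)) {D : Fˣ}
    (hfin : ∀ w : HeightOneSpectrum (𝓞 F), b ∉ NF a ⊔ LS (w.valuation F) →
      D ∉ LS (w.valuation F))
    (hreal : ∀ ψ : F →+* ℝ, ψ a < 0 → ψ b < 0 → ψ D < 0) :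
    ∃ w : Qt a b, w.re = 0 ∧ w * w = (D : F) • (1 : Qt a b) := by
  obtain ⟨y, p, q, h, -⟩ := Two2.ternary ha b D hfin hreal
  refine ⟨⟨0, y, p, q⟩, rfl, ?_⟩
  ext
  · simp [h]; ring
  · simp; ring
  · simp; ring
  · simp; ring

end pure

section good

variable {k L : Type} [Field k] [NumberField k] [Field L] [NumberField L] [Algebra k L]

/-- Local conditions for good parameters. -/
theorem good_of (h3 : Module.finrank k L = 3) {a b : kˣ} {q : Lˣ} (hab : Aniso a b)
    {D : kˣ}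
    (h1 : ∀ v : HeightOneSpectrum (𝓞 k), b ∉ NF a ⊔ LS (v.valuation k) →
      D ∉ LS (v.valuation k))
    (h2 : ∀ w : HeightOneSpectrum (𝓞 L), (q ∉ NF (up L a) ⊔ LS (w.valuation L) ∨
      q * up L b ∉ NF (up L a) ⊔ LS (w.valuation L)) → up L D ∉ LS (w.valuation L))
    (h4 : ∀ τ : k →+* ℝ, τ a < 0 → τ D < 0) :
    (D : k) ≠ 0 ∧ (∃ w : Qt a b, w.re = 0 ∧ w * w = (D : k) • 1) ∧
      (∃ w : Qt (up L a) q, w.re = 0 ∧ w * w = algebraMap k L D • 1) ∧
      ∃ w : Qt (up L a) (q * up L b), w.re = 0 ∧ w * w = algebraMap k L D • 1 := by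
  have hL : ¬ IsSquare ((up L a : Lˣ) : L) := not_isSquare_of_aniso (aniso_up h3 hab)
  have hr : ∀ ψ : L →+* ℝ, ψ (up L a : Lˣ) < 0 → ψ (up L D : Lˣ) < 0 := fun ψ hψ =>
    h4 (ψ.comp (algebraMap k L)) hψ
  refine ⟨D.ne_zero, exists_pure (not_isSquare_of_aniso hab) h1 fun ψ hψ _ => h4 ψ hψ,
    exists_pure hL (D := up L D) (fun w hw => h2 w (Or.inl hw)) fun ψ hψ _ => hr ψ hψ,
    exists_pure hL (D := up L D) (fun w hw => h2 w (Or.inr hw)) fun ψ hψ _ => hr ψ hψ⟩

theorem abs_real {F : Type} [Field F] (ψ : F →+* ℝ) (x : F) :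
    InfinitePlace.mk (Complex.ofRealHom.comp ψ) x = |ψ x| := by
  rw [InfinitePlace.apply]
  exact Complex.norm_real _

/-- A good parameter which is unramified at the ramified places of `Q₁`. -/
theorem exists_D (h3 : Module.finrank k L = 3) {ρ : L ≃ₐ[k] L} (hρ : ρ ≠ 1) {a b : kˣ} {q : Lˣ}
    : ∃ (c : k) (D : kˣ), (D : k) = 1 + 4 * c ∧
      (∀ w : HeightOneSpectrum (𝓞 L), Ram (up L a) (q * up L b) w →
        AdmC (w.valuation L) (algebraMap k L c)) ∧
      (∀ v : HeightOneSpectrum (𝓞 k), b ∉ NF a ⊔ LS (v.valuation k) →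
        D ∉ LS (v.valuation k)) ∧
      (∀ w : HeightOneSpectrum (𝓞 L), (q ∉ NF (up L a) ⊔ LS (w.valuation L) ∨
        q * up L b ∉ NF (up L a) ⊔ LS (w.valuation L)) → up L D ∉ LS (w.valuation L)) ∧
      (∀ τ : k →+* ℝ, τ D < 0 ↔ τ a < 0) ∧ ¬ IsSquare ((a : k) * D) := by
  classical
  obtain ⟨S, hS⟩ : ∃ S : Finset (HeightOneSpectrum (𝓞 k)),
      (∀ v : HeightOneSpectrum (𝓞 k), Ram a b v → v ∈ S) ∧
      ∀ w : HeightOneSpectrum (𝓞 L), (Ram (up L a) q w ∨ Ram (up L a) (q * up L b) w) →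
        w.under (𝓞 k) ∈ S := by
    refine ⟨(ram_finite a b).toFinset ∪ ((ram_finite (up L a) q).toFinset ∪
      (ram_finite (up L a) (q * up L b)).toFinset).image (fun w => w.under (𝓞 k)),
      fun v hv => Finset.mem_union_left _ ((ram_finite a b).mem_toFinset.mpr hv),
      fun w hw => Finset.mem_union_right _ (Finset.mem_image_of_mem _ ?_)⟩
    rcases hw with hw | hw
    · exact Finset.mem_union_left _ ((ram_finite _ _).mem_toFinset.mpr hw)
    · exact Finset.mem_union_right _ ((ram_finite _ _).mem_toFinset.mpr hw)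
  choose cv hcv using fun v : HeightOneSpectrum (𝓞 k) => exists_admC v
  obtain ⟨v', hv'⟩ := exists_notMem (S ∪ (finite_valuation_ne_one (F := k) (a : k)
    a.ne_zero).toFinset)
  rw [Finset.mem_union, not_or, Set.Finite.mem_toFinset, Set.mem_ofPred_eq, not_not] at hv'
  obtain ⟨π, hπ⟩ := v'.valuation_exists_uniformizer k
  obtain ⟨c, hc', hci⟩ := approxVal (F := k) (insert v' S)
    (fun v => if v = v' then (π - 1) / 4 else cv v)
    (fun v => if v = v' then WithZero.exp (-1) else 1)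
    (fun v _ => by split_ifs; exacts [WithZero.exp_ne_zero, one_ne_zero])
    (fun W => if ∃ τ : k →+* ℝ, InfinitePlace.mk (Complex.ofRealHom.comp τ) = W ∧ τ a < 0
      then -1 else 1) (ε := 1 / 2) (by norm_num)
  have hc : ∀ v ∈ S, v.valuation k (c - cv v) < 1 := fun v hv => by
    have h := hc' v (Finset.mem_insert_of_mem hv)
    have hne : v ≠ v' := by
      rintro rfl
      exact hv'.1 hv
    rwa [if_neg hne, if_neg hne] at h
  have hadm : ∀ v ∈ S, AdmC (v.valuation k) c := fun v hv => AdmC.congr (hcv v) (hc v hv)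
  have hodd : v'.valuation k (a * (1 + 4 * c)) = WithZero.exp (-1) := by
    have h := hc' v' (Finset.mem_insert_self _ _)
    rw [if_pos rfl, if_pos rfl] at h
    have e : (1 + 4 * c : k) = π + 4 * (c - (π - 1) / 4) := by ring
    rw [map_mul, hv'.2, one_mul, e, Valuation.map_add_eq_of_lt_left, hπ]
    rw [hπ, map_mul]
    exact (mul_le_of_le_one_left' (val_four_le _)).trans_lt h
  have hre : ∀ τ : k →+* ℝ, (τ a < 0 → τ (1 + 4 * c) < 0) ∧ (¬ τ a < 0 → 0 < τ (1 + 4 * c)) := by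
    intro τ
    have h1 := hci (InfinitePlace.mk (Complex.ofRealHom.comp τ))
    rw [abs_real] at h1
    have e : τ (1 + 4 * c) = 1 + 4 * τ c := by
      rw [map_add, map_mul, map_one, map_ofNat]
    constructor
    · intro ha
      rw [if_pos ⟨τ, rfl, ha⟩, map_sub, map_neg, map_one, abs_lt] at h1
      rw [e]
      linarith [h1.2]
    · intro ha
      rw [if_neg, map_sub, map_one, abs_lt] at h1
      · rw [e]
        linarith [h1.1]
      · rintro ⟨τ', h2, h3⟩
        exact ha (by rwa [← real_place_injective h2])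
  have hD0 : 1 + 4 * c ≠ 0 := by
    intro h0
    obtain ⟨W⟩ : Nonempty (InfinitePlace k) := inferInstance
    have h1 := hci W
    have h2 : c = -(1 / 4) := by linear_combination (1 / 4 : k) * h0
    rw [h2] at h1
    split_ifs at h1
    · have e : (-(1 / 4) - -1 : k) = ((3 / 4 : ℚ) : k) := by push_cast; norm_num
      rw [e] at h1
      have e2 : W ((3 / 4 : ℚ) : k) = 3 / 4 := by
        rw [← InfinitePlace.mk_embedding W, InfinitePlace.apply, map_ratCast]
        simp
      rw [e2] at h1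
      norm_num at h1
    · have e : (-(1 / 4) - 1 : k) = ((-(5 / 4) : ℚ) : k) := by push_cast; norm_num
      rw [e] at h1
      have e2 : W ((-(5 / 4) : ℚ) : k) = 5 / 4 := by
        rw [← InfinitePlace.mk_embedding W, InfinitePlace.apply, map_ratCast]
        simp
      rw [e2] at h1
      norm_num at h1
  have hup : ∀ w : HeightOneSpectrum (𝓞 L), (Ram (up L a) q w ∨ Ram (up L a) (q * up L b) w) →
      up L (Units.mk0 _ hD0) ∉ LS (w.valuation L) := fun w hw =>
    notMem_up h3 hρ (v := w.under (𝓞 k)) rfl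
      (TG.adm_notMem (hadm _ (hS.2 w hw)) (Units.val_mk0 hD0))
  refine ⟨c, Units.mk0 _ hD0, Units.val_mk0 hD0, fun w hw => ?_, fun v hv =>
    TG.adm_notMem (hadm v (hS.1 v hv)) (Units.val_mk0 hD0), fun w hw => hup w hw, fun τ => ?_,
    by rw [Units.val_mk0]; exact odd_not_square hodd⟩
  · have hv := hadm _ (hS.2 w (Or.inr hw))
    obtain ⟨e, he, hval⟩ := val_above (E := L) (w := w) (v := w.under (𝓞 k)) rfl
    refine TG.adm_of_notMem (a := up L (Units.mk0 _ hD0)) ?_ ?_ ?_ (hup w (Or.inr hw))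
    · change algebraMap k L (1 + 4 * c) = _
      rw [map_add, map_mul, map_one, map_ofNat]
    · rw [hval]
      exact pow_le_one' hv.1 e
    · have e1 : (1 : L) + 4 * algebraMap k L c = algebraMap k L (1 + 4 * c) := by
        rw [map_add, map_mul, map_one, map_ofNat]
      rw [e1, hval, TG.adm_unit hv, one_pow]
  · rw [Units.val_mk0]
    refine ⟨fun h => ?_, (hre τ).1⟩
    by_contra hcon
    exact absurd h (not_lt.mpr ((hre τ).2 hcon).le)

end good

end Vale.Agent.P011.D4X
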